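import Vale.Agent.P155.T730.Sym

/-!
# P155, TIGHT, block SYM: the transposition and the reflection
-/

namespace Vale.Agent.P155.T730

open Finset LatCycle T802

/-- the transposition `(x, y) ↦ (y, x)` -/
def tr0 : LS0 where
  v := fun x => (x.2, x.1)
  f := fun x => (x.2, x.1)
  vv := fun _ => rfl
  ff := fun _ => rfl
  adj := fun x y h => by unfold Adj at *; simp only; omega
  white := fun x => by unfold White; simp only; rw [add_comm]
  dbl := fun _ => rfl
  cell := fun g x h => by simp only; omega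
  half := fun _ => rfl

/-- the reflection `(x, y) ↦ (x, - y)` -/
def rf0 : LS0 where
  v := fun x => (x.1, - x.2)
  f := fun x => (x.1, - x.2 - 1)
  vv := fun x => by simp
  ff := fun x => by simp
  adj := fun x y h => by
    unfold Adj at *
    simp only
    have : - x.2 - - y.2 = - (x.2 - y.2) := by ring
    rw [this, abs_neg]
    exact h
  white := fun x => by
    unfold White
    simp only
    constructor <;> intro h
    · have := h.add_even (even_two_mul x.2)
      have e : x.1 + -x.2 + 2 * x.2 = x.1 + x.2 := by ring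
      rwa [e] at this
    · have := h.sub_even (even_two_mul x.2)
      have e : x.1 + x.2 - 2 * x.2 = x.1 + -x.2 := by ring
      rwa [e] at this
  dbl := fun x => by simp
  cell := fun g x h => by simp only; omega
  half := fun x => by
    simp only [Prod.mk.injEq, true_and]
    omega

theorem edge_map (σ : LS0) (γ : LatCycle) (u v : Pt) :
    (σ.cyc γ).edge (σ.v u) (σ.v v) ↔ γ.edge u v := by
  unfold LatCycle.edge LS0.cyc
  simp only [σ.v_inj.eq_iff]

/-! ## the transposition -/

theorem tr_hedge (γ : LatCycle) (x y : ℤ) : (tr0.cyc γ).hedge x y ↔ γ.vedge y x := by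
  rw [hedge_iff, vedge_iff]
  exact edge_map tr0 γ (y, x) (y, x + 1)

theorem tr_ins (γ : LatCycle) (g : Pt) : (tr0.cyc γ).inside (tr0.f g) ↔ γ.inside g := by
  obtain ⟨M, hM0, hM⟩ := exists_bound (γ := γ)
  have hM' : ∀ v ∈ (tr0.cyc γ).verts, |v.1| ≤ M ∧ |v.2| ≤ M := by
    rintro _ ⟨i, rfl⟩
    exact (hM _ ⟨i, rfl⟩).symm
  -- induction on the abscissa
  have key : ∀ k : ℕ, ∀ x y : ℤ, x = - M - 1 + k →
      ind2 ((tr0.cyc γ).inside (y, x)) = ind2 (γ.inside (x, y)) := by
    intro k
    induction k with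
    | zero =>
      intro x y hx
      rw [ind2_false (not_inside_left hM (by push_cast at hx; omega)),
        ind2_false (not_inside_vert hM' (Or.inr (by push_cast at hx; omega)))]
    | succ k ih =>
      intro x y hx
      have h1 := ih (x - 1) y (by push_cast at hx; omega)
      rw [cross_v (γ := γ) x y, cross_h (γ := tr0.cyc γ) y x, h1]
      congr 1
      by_cases h : γ.vedge x y
      · rw [ind2_true h, ind2_true ((tr_hedge γ y x).2 h)]
      · rw [ind2_false h, ind2_false (fun h' => h ((tr_hedge γ y x).1 h'))]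
  have main : ∀ x y : ℤ, ind2 ((tr0.cyc γ).inside (y, x)) = ind2 (γ.inside (x, y)) := by
    intro x y
    rcases le_or_gt (- M - 1) x with h | h
    · exact key (x - (- M - 1)).toNat x y (by rw [Int.toNat_of_nonneg (by omega)]; ring)
    · rw [ind2_false (not_inside_left hM (by omega)),
        ind2_false (not_inside_vert hM' (Or.inr (by omega)))]
  obtain ⟨x, y⟩ := g
  have h := main x y
  constructor
  · intro h'
    rw [ind2_true (show (tr0.cyc γ).inside (y, x) from h')] at h
    exact ind2_eq_one.1 h.symm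
  · intro h'
    rw [ind2_true h'] at h
    exact ind2_eq_one.1 h

theorem tr_mem (L : Set Pt) (x : Pt) : x ∈ tr0.v '' L ↔ (x.2, x.1) ∈ L := by
  constructor
  · rintro ⟨y, hy, rfl⟩
    exact hy
  · intro h
    exact ⟨_, h, rfl⟩

theorem tr_eB (ω : Conf) (L : Set Pt) (x y : ℤ) :
    eB (tr0.mapC ω) (tr0.v '' L) (y, x) = eA ω L (x, y) := by
  unfold eB eA
  have h1 : (tr0.mapC ω).1 (y, x) = (y + 1, x) ↔ ω.1 (x, y) = (x, y + 1) := by
    show tr0.v (ω.1 (x, y)) = (y + 1, x) ↔ _
    simp only [tr0, Prod.ext_iff]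
    tauto
  have h2 : (tr0.mapC ω).2 (y, x) = (y + 1, x) ↔ ω.2 (x, y) = (x, y + 1) := by
    show tr0.v (ω.2 (x, y)) = (y + 1, x) ↔ _
    simp only [tr0, Prod.ext_iff]
    tauto
  congr 1
  · apply ind_congr
    rw [tr_mem, tr_mem]
    simp only
    rw [h1]
  · apply ind_congr
    rw [tr_mem, tr_mem]
    simp only
    rw [h2]

theorem tr_sur (V : Finset Pt) (ω : Conf) (hω : ω ∈ DD V) (L : Set Pt) (hL : L ∈ Loops ω) (g : Pt) :
    surr (tr0.mapC ω) (tr0.v '' L) (tr0.f g) ↔ surr ω L g := by
  classical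
  have hω' : tr0.mapC ω ∈ DD (V.image tr0.v) := tr0.mem_DD_map.2 hω
  have hL' := tr0.loops_map hL
  have ev := loop_even hω hL
  have ev' := loop_even hω' hL'
  obtain ⟨M, hM⟩ := ev.bd
  -- the row `x` of the image is empty for `x < M`
  have row : ∀ x : ℤ, x < M → ∀ y, par (eA (tr0.mapC ω) (tr0.v '' L)) (y, x) = 0 := by
    intro x hx
    -- no vertical edges of the image in the row `x`: the horizontal edges at abscissa `x` vanish
    have h1 : ∀ y : ℤ, eA (tr0.mapC ω) (tr0.v '' L) (y, x) = 0 := by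
      intro y
      have := (hM (x, y) hx).2
      have e : eA (tr0.mapC ω) (tr0.v '' L) (y, x) = eB ω L (x, y) := by
        unfold eB eA
        have h1 : (tr0.mapC ω).1 (y, x) = (y, x + 1) ↔ ω.1 (x, y) = (x + 1, y) := by
          show tr0.v (ω.1 (x, y)) = (y, x + 1) ↔ _
          simp only [tr0, Prod.ext_iff]
          tauto
        have h2 : (tr0.mapC ω).2 (y, x) = (y, x + 1) ↔ ω.2 (x, y) = (x + 1, y) := by
          show tr0.v (ω.2 (x, y)) = (y, x + 1) ↔ _
          simp only [tr0, Prod.ext_iff]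
          tauto
        congr 1
        · apply ind_congr
          rw [tr_mem, tr_mem]
          simp only
          rw [h1]
        · apply ind_congr
          rw [tr_mem, tr_mem]
          simp only
          rw [h2]
      rw [e]
      exact this
    exact par_zero_row h1
  have key : ∀ k : ℕ, ∀ x y : ℤ, x = M - 1 + k →
      par (eA (tr0.mapC ω) (tr0.v '' L)) (y, x) = par (eA ω L) (x, y) := by
    intro k
    induction k with
    | zero =>
      intro x y hx
      rw [row x (by push_cast at hx; omega),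
        par_zero_left (fun x' hx' => (hM (x', y) (by push_cast at hx; simp only; omega)).1)]
    | succ k ih =>
      intro x y hx
      rw [par_right ev x y, par_up ev' y x, ih (x - 1) y (by push_cast at hx; omega), tr_eB]
  have main : ∀ x y : ℤ, par (eA (tr0.mapC ω) (tr0.v '' L)) (y, x) = par (eA ω L) (x, y) := by
    intro x y
    rcases le_or_gt (M - 1) x with h | h
    · exact key (x - (M - 1)).toNat x y (by rw [Int.toNat_of_nonneg (by omega)]; ring)
    · rw [row x (by omega), par_zero_left (fun x' hx' => (hM (x', y) (by simp only; omega)).1)]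
  obtain ⟨x, y⟩ := g
  apply ind_iff
  rw [surr_par hω' hL', surr_par hω hL]
  exact main x y

/-- the transposition -/
def tr : LS := { tr0 with ins := tr_ins, sur := tr_sur }

/-! ## the reflection -/

theorem rf_vedge (γ : LatCycle) (x y : ℤ) : (rf0.cyc γ).vedge x (- y - 1) ↔ γ.vedge x y := by
  rw [vedge_iff, vedge_iff]
  have h := edge_map rf0 γ (x, y + 1) (x, y)
  have e1 : rf0.v (x, y + 1) = (x, - y - 1) := by simp only [rf0, Prod.mk.injEq, true_and]; ring
  have e2 : rf0.v (x, y) = (x, - y - 1 + 1) := by simp only [rf0, Prod.mk.injEq, true_and]; ring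
  rw [e1, e2] at h
  rw [h]
  exact edge_comm

theorem rf_ins (γ : LatCycle) (g : Pt) : (rf0.cyc γ).inside (rf0.f g) ↔ γ.inside g := by
  unfold LatCycle.inside
  simp only [rf0]
  have : ∀ j, (rf0.cyc γ).vedge j (-g.2 - 1) ↔ γ.vedge j g.2 := fun j => rf_vedge γ j g.2
  have e : {j : ℤ | j ≤ g.1 ∧ (rf0.cyc γ).vedge j (-g.2 - 1)} = {j : ℤ | j ≤ g.1 ∧ γ.vedge j g.2} := by
    ext j
    simp only [Set.mem_ofPred_eq, this]
  exact iff_of_eq (congrArg (fun s : Set ℤ => Odd s.ncard) e)

theorem rf_mem (L : Set Pt) (x : Pt) : x ∈ rf0.v '' L ↔ (x.1, - x.2) ∈ L := by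
  constructor
  · rintro ⟨y, hy, rfl⟩
    simpa [rf0] using hy
  · intro h
    exact ⟨_, h, by simp [rf0]⟩

theorem rf_sur (V : Finset Pt) (ω : Conf) (hω : ω ∈ DD V) (A : Set Pt) (hA : A ∈ Loops ω) (g : Pt) :
    surr (rf0.mapC ω) (rf0.v '' A) (rf0.f g) ↔ surr ω A g := by
  unfold surr
  have key : ∀ j : ℤ, vedgeL (rf0.mapC ω) (rf0.v '' A) j (- g.2 - 1) ↔ vedgeL ω A j g.2 := by
    intro j
    unfold vedgeL
    rw [rf_mem]
    simp only
    have e0 : -(-g.2 - 1) = g.2 + 1 := by ring
    have e1 : -g.2 - 1 + 1 = - g.2 := by ring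
    rw [e0, e1]
    have h1 : ∀ m : Pt → Pt, rf0.mapM m (j, -g.2 - 1) = (j, -g.2) ↔ m (j, g.2 + 1) = (j, g.2) := by
      intro m
      unfold LS0.mapM
      have e2 : rf0.v (j, -g.2 - 1) = (j, g.2 + 1) := by
        simp only [rf0, Prod.mk.injEq, true_and]; ring
      have e3 : (j, -g.2) = rf0.v (j, g.2) := rfl
      rw [e2, e3, rf0.v_inj.eq_iff]
    have h3 : (rf0.mapC ω).1 = rf0.mapM ω.1 := rfl
    have h4 : (rf0.mapC ω).2 = rf0.mapM ω.2 := rfl
    rw [h3, h4, h1, h1]
    constructor
    · rintro ⟨hm, h | h⟩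
      · have h5 := L.loop_m1 hA hm
        rw [h] at h5
        refine ⟨h5, Or.inl ?_⟩
        rw [← h, L.inv1 hω]
      · have h5 := L.loop_m2 hA hm
        rw [h] at h5
        refine ⟨h5, Or.inr ?_⟩
        rw [← h, L.inv2 hω]
    · rintro ⟨hm, h | h⟩
      · have h5 := L.loop_m1 hA hm
        rw [h] at h5
        refine ⟨h5, Or.inl ?_⟩
        rw [← h, L.inv1 hω]
      · have h5 := L.loop_m2 hA hm
        rw [h] at h5
        refine ⟨h5, Or.inr ?_⟩
        rw [← h, L.inv2 hω]
  have e : {j : ℤ | j ≤ (rf0.f g).1 ∧ vedgeL (rf0.mapC ω) (rf0.v '' A) j (rf0.f g).2} =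
      {j : ℤ | j ≤ g.1 ∧ vedgeL ω A j g.2} := by
    ext j
    have : (rf0.f g).2 = - g.2 - 1 := rfl
    simp only [Set.mem_ofPred_eq, this, key]
    rfl
  exact iff_of_eq (congrArg (fun s : Set ℤ => Odd s.ncard) e)

/-- the reflection -/
def rfl0 : LS := { rf0 with ins := rf_ins, sur := rf_sur }

end Vale.Agent.P155.T730
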