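import Vale.Agent.P155.T730.Inst
import Vale.Agent.P155.H878.TightIface
import Mathlib.AlgebraicTopology.FundamentalGroupoid.SimplyConnected

/-!
# P155, TIGHT, block SYM: action on Temperleyan approximations
-/

namespace Vale.Agent.P155.T730

open Finset Filter Topology Q1

/-- transposition of the plane -/
noncomputable def ktr : ℂ ≃ₗᵢ[ℝ] ℂ where
  toFun z := ⟨z.im, z.re⟩
  invFun z := ⟨z.im, z.re⟩
  map_add' z w := by apply Complex.ext <;> simp
  map_smul' c z := by apply Complex.ext <;> simp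
  left_inv z := by apply Complex.ext <;> simp
  right_inv z := by apply Complex.ext <;> simp
  norm_map' z := by
    show ‖(⟨z.im, z.re⟩ : ℂ)‖ = ‖z‖
    rw [Complex.norm_def, Complex.norm_def, Complex.normSq_apply, Complex.normSq_apply]
    simp only
    rw [add_comm]

theorem ktr_re (z : ℂ) : (ktr z).re = z.im := rfl
theorem ktr_im (z : ℂ) : (ktr z).im = z.re := rfl

/-- A lattice symmetry together with the symmetry of the plane. -/
structure CS extends LS where
  κ : ℂ ≃ₗᵢ[ℝ] ℂ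
  κκ : ∀ z, κ (κ z) = z
  sq : ∀ (δ : ℝ) (a : ℂ) (g : Pt), sqr δ (κ a) (f g) = κ '' sqr δ a g

theorem tr_sq (δ : ℝ) (a : ℂ) (g : Pt) : sqr δ (ktr a) (tr.f g) = ktr '' sqr δ a g := by
  ext z
  constructor
  · rintro ⟨s, t, h1, h2, h3, h4, rfl⟩
    refine ⟨_, ⟨t, s, h3, h4, h1, h2, rfl⟩, ?_⟩
    apply Complex.ext
    · rw [ktr_re]
      simp [tr, tr0, ktr_re, ktr_im]
    · rw [ktr_im]
      simp [tr, tr0, ktr_re, ktr_im]
  · rintro ⟨_, ⟨s, t, h1, h2, h3, h4, rfl⟩, rfl⟩
    refine ⟨t, s, h3, h4, h1, h2, ?_⟩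
    apply Complex.ext
    · rw [ktr_re]
      simp [tr, tr0, ktr_re, ktr_im]
    · rw [ktr_im]
      simp [tr, tr0, ktr_re, ktr_im]

theorem rf_sq (δ : ℝ) (a : ℂ) (g : Pt) :
    sqr δ (Complex.conjLIE a) (rfl0.f g) = Complex.conjLIE '' sqr δ a g := by
  ext z
  constructor
  · rintro ⟨s, t, h1, h2, h3, h4, rfl⟩
    refine ⟨_, ⟨s, 1 - t, h1, h2, by linarith, by linarith, rfl⟩, ?_⟩
    apply Complex.ext
    · simp [rfl0, rf0]
    · simp [rfl0, rf0]
      left
      ring
  · rintro ⟨_, ⟨s, t, h1, h2, h3, h4, rfl⟩, rfl⟩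
    refine ⟨s, 1 - t, h1, h2, by linarith, by linarith, ?_⟩
    apply Complex.ext
    · simp [rfl0, rf0]
    · simp [rfl0, rf0]
      left
      ring

/-- the transposition -/
noncomputable def trC : CS := { tr with κ := ktr, κκ := fun _ => rfl, sq := tr_sq }

/-- the reflection -/
noncomputable def rfC : CS :=
  { rfl0 with κ := Complex.conjLIE, κκ := fun z => by simp, sq := rf_sq }

namespace CS

variable (σ : CS)

theorem image_image (s : Set ℂ) : σ.κ '' (σ.κ '' s) = s := by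
  ext z
  constructor
  · rintro ⟨_, ⟨w, hw, rfl⟩, rfl⟩
    rwa [σ.κκ]
  · intro h
    exact ⟨σ.κ z, ⟨z, h, rfl⟩, σ.κκ z⟩

theorem mem_image {s : Set ℂ} {z : ℂ} : z ∈ σ.κ '' s ↔ σ.κ z ∈ s := by
  constructor
  · rintro ⟨w, hw, rfl⟩
    rwa [σ.κκ]
  · intro h
    exact ⟨σ.κ z, h, σ.κκ z⟩

theorem image_sub {s t : Set ℂ} : σ.κ '' s ⊆ t ↔ s ⊆ σ.κ '' t := by
  constructor
  · intro h
    rw [← σ.image_image s]
    exact Set.image_mono h
  · intro h
    rw [← σ.image_image t]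
    exact Set.image_mono h

theorem image_sub_image {s t : Set ℂ} : σ.κ '' s ⊆ σ.κ '' t ↔ s ⊆ t :=
  Set.image_subset_image_iff σ.κ.injective

theorem region_map (δ : ℝ) (a : ℂ) (S : Set Pt) :
    region δ (σ.κ a) (σ.f '' S) = σ.κ '' region δ a S := by
  unfold region
  rw [Set.biUnion_image, Set.image_iUnion₂]
  simp only [σ.sq]

theorem region_tmap (δ : ℝ) (a : ℂ) (T : Temp) :
    region δ (σ.κ a) (σ.tmap T).faceSet = σ.κ '' region δ a T.faceSet := by
  rw [σ.faceSet_map', σ.region_map]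

theorem image_interior (s : Set ℂ) : σ.κ '' interior s = interior (σ.κ '' s) :=
  σ.κ.toHomeomorph.image_interior s

theorem image_frontier (s : Set ℂ) : σ.κ '' frontier s = frontier (σ.κ '' s) :=
  σ.κ.toHomeomorph.image_frontier s

theorem image_thickening (ε : ℝ) (s : Set ℂ) :
    σ.κ '' Metric.thickening ε s = Metric.thickening ε (σ.κ '' s) := by
  ext z
  rw [σ.mem_image, Metric.mem_thickening_iff, Metric.mem_thickening_iff]
  constructor
  · rintro ⟨w, hw, h⟩
    refine ⟨σ.κ w, ⟨w, hw, rfl⟩, ?_⟩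
    rwa [← σ.κκ z, σ.κ.dist_map]
  · rintro ⟨_, ⟨w, hw, rfl⟩, h⟩
    refine ⟨w, hw, ?_⟩
    rwa [← σ.κκ z, σ.κ.dist_map] at h

theorem infDist_image (z : ℂ) (s : Set ℂ) :
    Metric.infDist (σ.κ z) (σ.κ '' s) = Metric.infDist z s :=
  Metric.infDist_image σ.κ.isometry

/-- action on Temperleyan approximations -/
noncomputable def tap {Ω : Set ℂ} (S : TempApprox Ω) : TempApprox (σ.κ '' Ω) where
  T := fun n => σ.tmap (S.T n)
  δ := S.δ
  a := fun n => σ.κ (S.a n)
  pos := S.pos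
  mesh := S.mesh
  bdd := by
    obtain ⟨C, hC⟩ := S.bdd
    exact ⟨C, fun n => by rw [σ.κ.norm_map]; exact hC n⟩
  cara₁ := by
    intro K hK hKc
    have h1 : σ.κ '' K ⊆ Ω := σ.image_sub.2 hK
    filter_upwards [S.cara₁ _ h1 (hKc.image σ.κ.continuous)] with n hn
    rw [σ.region_tmap, ← σ.image_interior]
    exact σ.image_sub.1 hn
  cara₂ := by
    intro U hU hUc hne hfr
    have h1 : σ.κ '' U ⊆ Ω := by
      apply S.cara₂ _ (σ.κ.toHomeomorph.isOpenMap U hU) (hUc.image _ σ.κ.continuous.continuousOn)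
      · obtain ⟨z, hz1, hz2⟩ := hne
        exact ⟨σ.κ z, ⟨z, hz1, rfl⟩, σ.mem_image.1 hz2⟩
      · refine hfr.mono fun n hn => ?_
        rw [σ.region_tmap] at hn
        exact σ.image_sub.2 hn
    exact σ.image_sub.1 h1
  haus₁ := by
    intro ε hε
    filter_upwards [S.haus₁ ε hε] with n hn
    rw [σ.region_tmap, ← σ.image_frontier, ← σ.image_frontier, ← σ.image_thickening]
    exact Set.image_mono hn
  haus₂ := by
    intro ε hε
    filter_upwards [S.haus₂ ε hε] with n hn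
    rw [σ.region_tmap, ← σ.image_frontier, ← σ.image_frontier, ← σ.image_thickening]
    exact Set.image_mono hn
  outer := by
    intro ε hε
    filter_upwards [S.outer ε hε] with n hn
    rw [σ.region_tmap, ← σ.image_thickening]
    exact Set.image_mono hn

theorem isOpen_image {Ω : Set ℂ} (h : IsOpen Ω) : IsOpen (σ.κ '' Ω) :=
  σ.κ.toHomeomorph.isOpenMap Ω h

theorem bdd_image {Ω : Set ℂ} (h : Bornology.IsBounded Ω) : Bornology.IsBounded (σ.κ '' Ω) :=
  σ.κ.lipschitz.isBounded_image h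

theorem sc_image {Ω : Set ℂ} (h : SimplyConnectedSpace Ω) : SimplyConnectedSpace (σ.κ '' Ω) :=
  (σ.κ.toHomeomorph.image Ω).symm.toHomotopyEquiv.simplyConnectedSpace

end CS

end Vale.Agent.P155.T730
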