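import Vale.Agent.P155.A.InLoop
import Vale.Agent.P155.F.Arc
import Vale.Agent.P155.T802.Own

/-!
# P155, TIGHT, block SYM: symmetries of the square lattice acting on everything
-/

namespace Vale.Agent.P155.T730

open Finset

/-- A symmetry of the square lattice (an involution): action on vertices and on faces. -/
structure LS0 where
  v : Pt → Pt
  f : Pt → Pt
  vv : ∀ x, v (v x) = x
  ff : ∀ x, f (f x) = x
  adj : ∀ x y, Adj x y → Adj (v x) (v y)
  white : ∀ x, White (v x) ↔ White x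
  dbl : ∀ x : Pt, v (2 * x.1, 2 * x.2) = (2 * (v x).1, 2 * (v x).2)
  cell : ∀ g x : Pt, (2 * g.1 ≤ x.1 ∧ x.1 ≤ 2 * g.1 + 2 ∧ 2 * g.2 ≤ x.2 ∧ x.2 ≤ 2 * g.2 + 2) →
    (2 * (f g).1 ≤ (v x).1 ∧ (v x).1 ≤ 2 * (f g).1 + 2 ∧ 2 * (f g).2 ≤ (v x).2 ∧
      (v x).2 ≤ 2 * (f g).2 + 2)
  half : ∀ x : Pt, ((f x).1 / 2, (f x).2 / 2) = f (x.1 / 2, x.2 / 2)

namespace LS0

variable (σ : LS0)

theorem v_inj : Function.Injective σ.v := fun x y h => by
  rw [← σ.vv x, h, σ.vv]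

theorem f_inj : Function.Injective σ.f := fun x y h => by
  rw [← σ.ff x, h, σ.ff]

/-- action on lattice cycles -/
def cyc (γ : LatCycle) : LatCycle where
  n := γ.n
  hn := γ.hn
  c := fun i => σ.v (γ.c i)
  inj := σ.v_inj.comp γ.inj
  adj := fun i => σ.adj _ _ (γ.adj i)

/-- action on matchings -/
def mapM (m : Pt → Pt) : Pt → Pt := fun x => σ.v (m (σ.v x))

/-- action on configurations -/
def mapC (ω : Conf) : Conf := (σ.mapM ω.1, σ.mapM ω.2)

theorem mapM_v (m : Pt → Pt) (x : Pt) : σ.mapM m (σ.v x) = σ.v (m x) := by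
  unfold mapM
  rw [σ.vv]

theorem mapM_mapM (m : Pt → Pt) : σ.mapM (σ.mapM m) = m := by
  funext x
  unfold mapM
  rw [σ.vv, σ.vv]

theorem mapC_mapC (ω : Conf) : σ.mapC (σ.mapC ω) = ω := by
  unfold mapC
  simp only [mapM_mapM]

theorem mapC_inj : Function.Injective σ.mapC := fun x y h => by
  rw [← σ.mapC_mapC x, h, σ.mapC_mapC]

open Classical in
theorem isPM_map {V : Finset Pt} {m : Pt → Pt} (h : IsPM V m) :
    IsPM (V.image σ.v) (σ.mapM m) where
  invol := fun x => by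
    unfold mapM
    rw [σ.vv, h.invol, σ.vv]
  off := fun x hx => by
    unfold mapM
    rw [h.off, σ.vv]
    intro h'
    exact hx (Finset.mem_image.2 ⟨σ.v x, h', σ.vv x⟩)
  adj := fun x hx => by
    obtain ⟨y, hy, rfl⟩ := Finset.mem_image.1 hx
    rw [σ.mapM_v]
    exact σ.adj _ _ (h.adj y hy)

open Classical in
theorem image_image (V : Finset Pt) : (V.image σ.v).image σ.v = V := by
  ext x
  simp only [Finset.mem_image]
  constructor
  · rintro ⟨y, ⟨z, hz, rfl⟩, rfl⟩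
    rwa [σ.vv]
  · intro hx
    exact ⟨σ.v x, ⟨x, hx, rfl⟩, σ.vv x⟩

open Classical in
theorem mem_DD_map {V : Finset Pt} {ω : Conf} : σ.mapC ω ∈ DD (V.image σ.v) ↔ ω ∈ DD V := by
  have key : ∀ (V : Finset Pt) (ω : Conf), ω ∈ DD V → σ.mapC ω ∈ DD (V.image σ.v) := by
    intro V ω h
    have h' := Finset.mem_product.1 h
    exact Finset.mem_product.2 ⟨mem_PM.2 (σ.isPM_map (mem_PM.1 h'.1)),
      mem_PM.2 (σ.isPM_map (mem_PM.1 h'.2))⟩
  refine ⟨fun h => ?_, key V ω⟩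
  have := key _ _ h
  rwa [σ.mapC_mapC, σ.image_image] at this

open Classical in
theorem DD_map (V : Finset Pt) : DD (V.image σ.v) = (DD V).image σ.mapC := by
  ext ω
  rw [Finset.mem_image]
  constructor
  · intro h
    refine ⟨σ.mapC ω, ?_, σ.mapC_mapC ω⟩
    rw [← σ.mem_DD_map, σ.mapC_mapC]
    exact h
  · rintro ⟨ω', h, rfl⟩
    exact σ.mem_DD_map.2 h

open Classical in
theorem Ex_map {E : Type*} [AddCommMonoid E] [Module ℝ E] (V : Finset Pt) (g : Conf → E) :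
    Ex (V.image σ.v) g = Ex V (fun ω => g (σ.mapC ω)) := by
  unfold Ex
  rw [σ.DD_map, Finset.card_image_of_injective _ σ.mapC_inj,
    Finset.sum_image (fun x _ y _ h => σ.mapC_inj h)]

open Classical in
theorem Pr_map (V : Finset Pt) (p : Conf → Prop) :
    Pr (V.image σ.v) p = Pr V (fun ω => p (σ.mapC ω)) := by
  unfold Pr
  rw [σ.Ex_map]
  congr 1

theorem suc_map (ω : Conf) (x : Pt) : SW.suc (σ.mapC ω) (σ.v x) = σ.v (SW.suc ω x) := by
  unfold SW.suc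
  by_cases h : White x
  · rw [if_pos h, if_pos ((σ.white x).2 h)]
    exact σ.mapM_v _ _
  · rw [if_neg h, if_neg (fun h' => h ((σ.white x).1 h'))]
    exact σ.mapM_v _ _

theorem suc_iter (ω : Conf) (x : Pt) (j : ℕ) :
    (SW.suc (σ.mapC ω))^[j] (σ.v x) = σ.v ((SW.suc ω)^[j] x) := by
  induction j with
  | zero => rfl
  | succ j ih => rw [Function.iterate_succ_apply', Function.iterate_succ_apply', ih, σ.suc_map]

theorem same_map {ω : Conf} {x y : Pt} (h : Same ω x y) : Same (σ.mapC ω) (σ.v x) (σ.v y) := by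
  unfold Same at h ⊢
  induction h with
  | refl => exact Relation.ReflTransGen.refl
  | tail _ hbc ih =>
    refine ih.tail ?_
    rcases hbc with rfl | rfl
    · exact Or.inl (σ.mapM_v _ _).symm
    · exact Or.inr (σ.mapM_v _ _).symm

theorem same_iff {ω : Conf} {x y : Pt} : Same (σ.mapC ω) (σ.v x) (σ.v y) ↔ Same ω x y := by
  refine ⟨fun h => ?_, σ.same_map⟩
  have := σ.same_map h
  rwa [σ.mapC_mapC, σ.vv, σ.vv] at this

theorem comp_map (ω : Conf) (x : Pt) : comp (σ.mapC ω) (σ.v x) = σ.v '' comp ω x := by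
  ext y
  constructor
  · intro h
    refine ⟨σ.v y, ?_, σ.vv y⟩
    have h' : Same (σ.mapC ω) (σ.v x) y := h
    rw [← σ.vv y] at h'
    exact σ.same_iff.1 h'
  · rintro ⟨z, hz, rfl⟩
    exact σ.same_map hz

theorem ne_map {ω : Conf} {x : Pt} :
    (σ.mapC ω).1 (σ.v x) ≠ (σ.mapC ω).2 (σ.v x) ↔ ω.1 x ≠ ω.2 x := by
  have e1 : (σ.mapC ω).1 (σ.v x) = σ.v (ω.1 x) := σ.mapM_v _ _
  have e2 : (σ.mapC ω).2 (σ.v x) = σ.v (ω.2 x) := σ.mapM_v _ _
  rw [e1, e2]
  exact σ.v_inj.ne_iff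

theorem loops_map {ω : Conf} {L : Set Pt} (h : L ∈ Loops ω) : σ.v '' L ∈ Loops (σ.mapC ω) := by
  obtain ⟨x, hx, rfl⟩ := h
  exact ⟨σ.v x, σ.ne_map.2 hx, (σ.comp_map ω x).symm⟩

end LS0

/-- A symmetry which is compatible with the parities (`inside` and `surr`). -/
structure LS extends LS0 where
  ins : ∀ (γ : LatCycle) (g : Pt), (toLS0.cyc γ).inside (f g) ↔ γ.inside g
  sur : ∀ (V : Finset Pt) (ω : Conf), ω ∈ DD V → ∀ L ∈ Loops ω, ∀ g : Pt,
    (surr (toLS0.mapC ω) (v '' L) (f g) ↔ surr ω L g)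

namespace LS

variable (σ : LS)

/-- action on Temperleyan graphs -/
def tmap (T : Temp) : Temp where
  γ := σ.toLS0.cyc T.γ
  i0 := T.i0

theorem cells_map (T : Temp) (g : Pt) : σ.f g ∈ (σ.tmap T).cells ↔ g ∈ T.cells := σ.ins T.γ g

theorem v0_map (T : Temp) : (σ.tmap T).v0 = σ.v T.v0 := (σ.dbl _).symm

theorem closedVerts_map (T : Temp) (x : Pt) : σ.v x ∈ (σ.tmap T).closedVerts ↔ x ∈ T.closedVerts := by
  constructor
  · rintro ⟨g, hg, h⟩
    refine ⟨σ.f g, ?_, ?_⟩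
    · rw [← σ.cells_map, σ.ff]
      exact hg
    · have := σ.cell g _ h
      rwa [σ.vv] at this
  · rintro ⟨g, hg, h⟩
    exact ⟨σ.f g, (σ.cells_map T g).2 hg, σ.cell g _ h⟩

theorem faceSet_map (T : Temp) (g : Pt) : σ.f g ∈ (σ.tmap T).faceSet ↔ g ∈ T.faceSet := by
  rw [A1.mem_faceSet, A1.mem_faceSet, σ.half]
  exact σ.ins _ _

theorem faceSet_map' (T : Temp) : (σ.tmap T).faceSet = σ.f '' T.faceSet := by
  ext g
  constructor
  · intro h
    refine ⟨σ.f g, ?_, σ.ff g⟩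
    rw [← σ.faceSet_map, σ.ff]
    exact h
  · rintro ⟨x, hx, rfl⟩
    exact (σ.faceSet_map T x).2 hx

open Classical in
theorem V_map (T : Temp) : (σ.tmap T).V = T.V.image σ.v := by
  ext x
  rw [A1.mem_V, Finset.mem_image]
  constructor
  · rintro ⟨h1, h2⟩
    refine ⟨σ.v x, ?_, σ.vv x⟩
    rw [A1.mem_V]
    constructor
    · rw [← σ.closedVerts_map, σ.vv]
      exact h1
    · intro h
      apply h2
      rw [σ.v0_map, ← h, σ.vv]
  · rintro ⟨y, hy, rfl⟩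
    rw [A1.mem_V] at hy
    refine ⟨(σ.closedVerts_map T y).2 hy.1, ?_⟩
    rw [σ.v0_map]
    exact fun h => hy.2 (σ.v_inj h)

theorem Pr_tmap (T : Temp) (p : Conf → Prop) :
    Pr (σ.tmap T).V p = Pr T.V (fun ω => p (σ.mapC ω)) := by
  classical
  rw [σ.V_map]
  exact σ.toLS0.Pr_map T.V p

theorem Ex_tmap {E : Type*} [AddCommMonoid E] [Module ℝ E] (T : Temp) (g : Conf → E) :
    Ex (σ.tmap T).V g = Ex T.V (fun ω => g (σ.mapC ω)) := by
  classical
  rw [σ.V_map]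
  exact σ.toLS0.Ex_map T.V g

theorem mem_DD_tmap {T : Temp} {ω : Conf} : σ.mapC ω ∈ DD (σ.tmap T).V ↔ ω ∈ DD T.V := by
  classical
  rw [σ.V_map]
  exact σ.toLS0.mem_DD_map

end LS

end Vale.Agent.P155.T730
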