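import Vale.Agent.P155.T730.Cont

/-!
# P155, TIGHT, block SYM: from horizontal to vertical crossings
-/

namespace Vale.Agent.P155.T730

open Finset Filter Topology Q1

theorem tr_v (x : Pt) : tr.v x = (x.2, x.1) := rfl

theorem tr_iter (ω : Conf) (v : Pt) (j : ℕ) : (SW.suc (tr.mapC ω))^[j] (tr.v v) =
    (((SW.suc ω)^[j] v).2, ((SW.suc ω)^[j] v).1) := tr.suc_iter ω v j

/-- strands -/
theorem strand_tr {ω : Conf} {p0 p1 q0 q1 : ℤ} {v : Pt} {m : ℕ} :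
    Strand Prod.fst Prod.snd (tr.mapC ω) p0 p1 q0 q1 (tr.v v) m ↔
      Strand Prod.snd Prod.fst ω p0 p1 q0 q1 v m := by
  constructor
  · rintro ⟨h1, h2, h3, h4⟩
    simp only [tr_iter] at h2 h3 h4
    exact ⟨tr.ne_map.1 h1, h2, h3, h4⟩
  · rintro ⟨h1, h2, h3, h4⟩
    refine ⟨tr.ne_map.2 h1, ?_, ?_, ?_⟩
    · simp only [tr_iter]
      exact h2
    · simp only [tr_iter]
      exact h3
    · simp only [tr_iter]
      exact h4

theorem topS_tr (ω : Conf) (v : Pt) (m : ℕ) (X : ℤ) :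
    topS Prod.fst Prod.snd (tr.mapC ω) (tr.v v) m X = topS Prod.snd Prod.fst ω v m X := by
  unfold topS
  simp only [tr_iter]

theorem crosses_tr {δ : ℝ} {a : ℂ} {ω : Conf} {r0 r1 s0 s1 : ℝ} {v : Pt} {m : ℕ} :
    hor.Crosses δ (trC.κ a) (tr.mapC ω) r0 r1 s0 s1 (tr.v v) m ↔
      ver.Crosses δ a ω r0 r1 s0 s1 v m := strand_tr

theorem rect_tr (r0 r1 s0 s1 : ℝ) : hor.rect r0 r1 s0 s1 = trC.κ '' ver.rect r0 r1 s0 s1 := by
  ext z
  rw [trC.mem_image]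
  rfl

theorem rect_tr' {Ω : Set ℂ} {r0 r1 s0 s1 : ℝ} (h : ver.rect r0 r1 s0 s1 ⊆ Ω) :
    hor.rect r0 r1 s0 s1 ⊆ trC.κ '' Ω := by
  rw [rect_tr]
  exact Set.image_mono h

theorem tr_vv (x : Pt) : tr.v (tr.v x) = x := rfl

theorem cross_ver (h : CROSS hor) : CROSS ver := by
  intro Ω hΩ hb hne hsc S r0 r1 s0 s1 hr hs hrect ε hε
  obtain ⟨M, hM⟩ := h (trC.κ '' Ω) (trC.isOpen_image hΩ) (trC.bdd_image hb) (hne.image _)
    (trC.sc_image hsc) (trC.tap S) r0 r1 s0 s1 hr hs (rect_tr' hrect) ε hε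
  refine ⟨M, ?_⟩
  filter_upwards [hM] with n hn
  have h1 := tr.Pr_tmap (S.T n) (fun ω => M < Set.ncard {v | ∃ m,
    hor.Crosses (S.δ n) (trC.κ (S.a n)) ω r0 r1 s0 s1 v m})
  have h2 : Pr (S.T n).V (fun ω => M < Set.ncard {v | ∃ m,
      hor.Crosses (S.δ n) (trC.κ (S.a n)) (tr.mapC ω) r0 r1 s0 s1 v m}) ≤ ε := by
    rw [← h1]
    exact hn
  have h3 : ∀ ω : Conf, {v | ∃ m, hor.Crosses (S.δ n) (trC.κ (S.a n)) (tr.mapC ω) r0 r1 s0 s1 v m} =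
      tr.v '' {v | ∃ m, ver.Crosses (S.δ n) (S.a n) ω r0 r1 s0 s1 v m} := by
    intro ω
    ext v
    constructor
    · rintro ⟨m, hv⟩
      refine ⟨tr.v v, ⟨m, ?_⟩, rfl⟩
      rw [← crosses_tr, tr_vv]
      exact hv
    · rintro ⟨u, ⟨m, hu⟩, rfl⟩
      exact ⟨m, crosses_tr.2 hu⟩
  simp only [h3, Set.ncard_image_of_injective _ tr.v_inj] at h2
  exact h2

theorem sqr_tr {δ : ℝ} {a : ℂ} {g : Pt} {r0 r1 s0 s1 : ℝ} :
    sqr δ (trC.κ a) (tr.f g) ⊆ hor.rect r0 r1 s0 s1 ↔ sqr δ a g ⊆ ver.rect r0 r1 s0 s1 := by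
  rw [rect_tr]
  have : sqr δ (trC.κ a) (tr.f g) = trC.κ '' sqr δ a g := trC.sq δ a g
  rw [this, trC.image_sub_image]

theorem top_ver (h : TOP hor) : TOP ver := by
  intro Ω hΩ hb hne hsc S r0 r0' r1' r1 s0 s1 h1 h2 h3 hs hrect ε hε
  obtain ⟨α, hα, hM⟩ := h (trC.κ '' Ω) (trC.isOpen_image hΩ) (trC.bdd_image hb) (hne.image _)
    (trC.sc_image hsc) (trC.tap S) r0 r0' r1' r1 s0 s1 h1 h2 h3 hs (rect_tr' hrect) ε hε
  refine ⟨α, hα, ?_⟩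
  filter_upwards [hM] with n hn
  have k1 := tr.Pr_tmap (S.T n) (fun ω => ∃ v m v' m',
    hor.Crosses (S.δ n) (trC.κ (S.a n)) ω r0 r1 s0 s1 v m ∧
      hor.Crosses (S.δ n) (trC.κ (S.a n)) ω r0 r1 s0 s1 v' m' ∧ v ≠ v' ∧ Same ω v v' ∧
      (S.δ n) ^ 2 * ∑ X ∈ Finset.Ico (hor.lp (S.δ n) (trC.κ (S.a n)) r0')
        (hor.lp (S.δ n) (trC.κ (S.a n)) r1'),
        |(topS hor.p hor.q ω v m X : ℝ) - topS hor.p hor.q ω v' m' X| < α)
  have k2 := k1.symm.le.trans hn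
  refine le_trans (le_of_eq ?_) k2
  congr 1
  funext ω
  apply propext
  constructor
  · rintro ⟨v, m, v', m', a1, a2, a3, a4, a5⟩
    refine ⟨tr.v v, m, tr.v v', m', crosses_tr.2 a1, crosses_tr.2 a2, tr.v_inj.ne a3,
      tr.same_map a4, ?_⟩
    have e : ∀ X : ℤ, |(topS hor.p hor.q (tr.mapC ω) (tr.v v) m X : ℝ) -
        topS hor.p hor.q (tr.mapC ω) (tr.v v') m' X| =
        |(topS ver.p ver.q ω v m X : ℝ) - topS ver.p ver.q ω v' m' X| := by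
      intro X
      have e1 : topS hor.p hor.q (tr.mapC ω) (tr.v v) m X = topS ver.p ver.q ω v m X :=
        topS_tr ω v m X
      have e2 : topS hor.p hor.q (tr.mapC ω) (tr.v v') m' X = topS ver.p ver.q ω v' m' X :=
        topS_tr ω v' m' X
      rw [e1, e2]
    simp only [e]
    exact a5
  · rintro ⟨v, m, v', m', a1, a2, a3, a4, a5⟩
    have b1 : hor.Crosses (S.δ n) (trC.κ (S.a n)) (tr.mapC ω) r0 r1 s0 s1 (tr.v (tr.v v)) m := a1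
    have b2 : hor.Crosses (S.δ n) (trC.κ (S.a n)) (tr.mapC ω) r0 r1 s0 s1 (tr.v (tr.v v')) m' := a2
    have b4 : Same (tr.mapC ω) (tr.v (tr.v v)) (tr.v (tr.v v')) := a4
    refine ⟨tr.v v, m, tr.v v', m', crosses_tr.1 b1, crosses_tr.1 b2, tr.v_inj.ne a3,
      tr.same_iff.1 b4, ?_⟩
    have e : ∀ X : ℤ, |(topS hor.p hor.q (tr.mapC ω) v m X : ℝ) -
        topS hor.p hor.q (tr.mapC ω) v' m' X| =
        |(topS ver.p ver.q ω (tr.v v) m X : ℝ) - topS ver.p ver.q ω (tr.v v') m' X| := by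
      intro X
      have e1 : topS hor.p hor.q (tr.mapC ω) (tr.v (tr.v v)) m X = topS ver.p ver.q ω (tr.v v) m X :=
        topS_tr ω (tr.v v) m X
      have e2 : topS hor.p hor.q (tr.mapC ω) (tr.v (tr.v v')) m' X =
          topS ver.p ver.q ω (tr.v v') m' X := topS_tr ω (tr.v v') m' X
      rw [tr_vv] at e1 e2
      rw [e1, e2]
    simp only [e] at a5
    exact a5

/-- `Pr` only depends on the event inside `DD`. -/
theorem Pr_congr {V : Finset Pt} {p q : Conf → Prop} (h : ∀ ω ∈ DD V, p ω ↔ q ω) :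
    Pr V p = Pr V q := by
  classical
  unfold Pr Ex
  congr 1
  apply Finset.sum_congr rfl
  intro ω hω
  by_cases hp : p ω
  · rw [Set.indicator_of_mem (show ω ∈ {ω | p ω} from hp),
      Set.indicator_of_mem (show ω ∈ {ω | q ω} from (h ω hω).1 hp)]
  · rw [Set.indicator_of_notMem (show ω ∉ {ω | p ω} from hp),
      Set.indicator_of_notMem (show ω ∉ {ω | q ω} from fun hq => hp ((h ω hω).2 hq))]

theorem fat_set {V : Finset Pt} {ω : Conf} (hω : ω ∈ DD V) {v : Pt} (hv : ω.1 v ≠ ω.2 v) (δ : ℝ)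
    (a : ℂ) (r0 r1 s0 s1 : ℝ) :
    Set.ncard {f : Pt | surr (tr.mapC ω) (comp (tr.mapC ω) (tr.v v)) f ∧
      sqr δ (trC.κ a) f ⊆ hor.rect r0 r1 s0 s1} =
    Set.ncard {f : Pt | surr ω (comp ω v) f ∧ sqr δ a f ⊆ ver.rect r0 r1 s0 s1} := by
  have e : {f : Pt | surr (tr.mapC ω) (comp (tr.mapC ω) (tr.v v)) f ∧
      sqr δ (trC.κ a) f ⊆ hor.rect r0 r1 s0 s1} =
      tr.f '' {f : Pt | surr ω (comp ω v) f ∧ sqr δ a f ⊆ ver.rect r0 r1 s0 s1} := by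
    have hL : comp ω v ∈ Loops ω := ⟨v, hv, rfl⟩
    ext f
    constructor
    · rintro ⟨h1, h2⟩
      refine ⟨tr.f f, ⟨?_, ?_⟩, rfl⟩
      · rw [← tr.sur V ω hω _ hL, ← LS0.comp_map]
        exact h1
      · rw [← sqr_tr]
        exact h2
    · rintro ⟨g, ⟨h1, h2⟩, rfl⟩
      refine ⟨?_, sqr_tr.2 h2⟩
      rw [LS0.comp_map]
      exact (tr.sur V ω hω _ hL g).2 h1
  rw [e, Set.ncard_image_of_injective _ tr.f_inj]

theorem fat_ver (h : FAT hor) : FAT ver := by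
  intro Ω hΩ hb hne hsc S r0 r1 s0 s1 r0' r1' s0' s1' h1 h2 h3 h4 h5 h6 hrect ε hε
  obtain ⟨α, hα, hM⟩ := h (trC.κ '' Ω) (trC.isOpen_image hΩ) (trC.bdd_image hb) (hne.image _)
    (trC.sc_image hsc) (trC.tap S) r0 r1 s0 s1 r0' r1' s0' s1' h1 h2 h3 h4 h5 h6 (rect_tr' hrect)
    ε hε
  refine ⟨α, hα, ?_⟩
  filter_upwards [hM] with n hn
  have k1 := tr.Pr_tmap (S.T n) (fun ω => ∃ v m,
    hor.Crosses (S.δ n) (trC.κ (S.a n)) ω r0 r1 s0 s1 v m ∧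
      (S.δ n) ^ 2 * Set.ncard {f : Pt | surr ω (comp ω v) f ∧
        sqr (S.δ n) (trC.κ (S.a n)) f ⊆ hor.rect r0' r1' s0' s1'} < α)
  have k2 := k1.symm.le.trans hn
  refine le_trans (le_of_eq ?_) k2
  apply Pr_congr
  intro ω hω
  constructor
  · rintro ⟨v, m, a1, a2⟩
    refine ⟨tr.v v, m, crosses_tr.2 a1, ?_⟩
    rw [fat_set hω a1.loop]
    exact a2
  · rintro ⟨v, m, a1, a2⟩
    have b1 : hor.Crosses (S.δ n) (trC.κ (S.a n)) (tr.mapC ω) r0 r1 s0 s1 (tr.v (tr.v v)) m := a1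
    have b2 := crosses_tr.1 b1
    refine ⟨tr.v v, m, b2, ?_⟩
    have e := fat_set hω b2.loop (S.δ n) (S.a n) r0' r1' s0' s1'
    rw [tr_vv] at e
    rw [← e]
    exact a2

end Vale.Agent.P155.T730
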